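import Vale.Agent.P305W88.Defs

/-!
# P305: the word RAM computes a maximum matching with a prescribed probability
-/

namespace Vale.Agent.N305

open Vale.Agent.P305 Vale.Agent.P305W88 MeasureTheory

/-- With words of any size `w ≥ k log₂ (n + 2)`: for every graph `G` with `n` vertices and `m`
edges, given by adjacency lists, the input fits into the memory and there is a number `t` of steps
such that `P` has halted after `t` steps whatever the random bits are, with probability at least
`p n m` its output is a maximum matching of `G`, and the time, that is `t` plus one unit for each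
word of the input and each of the `n` words of the output, is at most `T n m`. -/
def Computes (P : List Ins) (k : ℕ) (T : ℕ → ℕ → ℕ) (p : ℕ → ℕ → ℝ) : Prop :=
  ∀ (n : ℕ) (G : SimpleGraph (Fin n)) (L : AdjLists G) (w : ℕ), (n + 2) ^ k ≤ 2 ^ w →
    (L.encode.length ≤ 2 ^ w ∧ ∀ x ∈ L.encode, x < 2 ^ w) ∧
    ∃ t : ℕ, L.encode.length + t + n ≤ T n G.edgeSet.ncard ∧
      (∀ ω, P.length ≤ (run w P ω L.encode t).pc) ∧
      MeasurableSet {ω | Outputs G (run w P ω L.encode t)} ∧
      p n G.edgeSet.ncard ≤ coins.real {ω | Outputs G (run w P ω L.encode t)}

end Vale.Agent.N305
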