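import Vale.Agent.P305O.Eps

/-!
# P305: explicit time bound and failure probability, for structured programs
-/

namespace Vale.Agent.N305

open Vale.Agent.P305 Vale.Agent.P305.MM Vale.Agent.P305E Vale.Agent.P305F Vale.Agent.P305C
  Vale.Agent.P305O

/-- As `RandSolves`, with failure probability `δ (n + m + 2)`. -/
def RandP (P : RProg) (T : ℕ → ℕ → ℕ) (δ : ℕ → ℝ) : Prop :=
  ∃ k : ℕ, ∀ (n : ℕ) (G : SimpleGraph (Fin n)) (L : AdjLists G),
    (∀ ω : ℕ → Bool, ∃ (t : ℕ) (s : State) (i : ℕ),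
      RExec ((n + G.edgeSet.ncard + 2) ^ k) ω P (State.init L.encode) 0 t s i ∧
      t ≤ T n G.edgeSet.ncard) ∧
    ∀ B : ℕ, T n G.edgeSet.ncard ≤ B →
      2 ^ B * (1 - δ (n + G.edgeSet.ncard + 2)) ≤ (Nat.card {ω : Fin B → Bool //
        ∃ (t : ℕ) (s : State) (i : ℕ) (M : G.Subgraph),
          RExec ((n + G.edgeSet.ncard + 2) ^ k) (extend ω) P (State.init L.encode) 0 t s i ∧
          IsMaximumMatching G M ∧ Represents s.mem M} : ℝ)

theorem top_fuelP (main : List ℕ → M (List ℕ)) (hI : Impl main) (a : ℕ) (g : ℕ → ℕ) (hg : Sub g)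
    (δ : ℕ → ℝ) (h : ∀ (n : ℕ) (G : SimpleGraph (Fin n)) (L : AdjLists G),
      pr ((n + G.edgeSet.ncard + 2) ^ a) (main L.encode) (fun out t =>
        ¬ ((∃ M : G.Subgraph, IsMaximumMatching G M ∧ Represents (fun i => out.getD i 0) M) ∧
          t ≤ (n + G.edgeSet.ncard + 2) * g (n + G.edgeSet.ncard + 2))) ≤
        δ (n + G.edgeSet.ncard + 2)) :
    ∃ (P : RProg) (T : ℕ → ℕ → ℕ) (g' : ℕ → ℕ), Sub g' ∧
      (∀ n m, T n m ≤ (n + m + 2) * g' (n + m + 2)) ∧ RandP P T δ := by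
  obtain ⟨e, j, he⟩ := hI
  obtain ⟨c, hc⟩ := (((Sub.const 3).mul ((Sub.lg_pow (a + j + 2)).pow j)).mul
    (hg.add (Sub.const 1))).exists_lin
  obtain ⟨fu, hfu'⟩ : ∃ fu : ℕ → ℕ, fu = fun N => fuelF c N := ⟨_, rfl⟩
  obtain ⟨kf, ef, jf, hf⟩ : Grow fu := hfu' ▸ grow_fuelF c
  have hsub : Sub fun N => 2 ^ (c * sb N) := Sub.two_pow (Lin.sb.const_mul c)
  obtain ⟨jw, hjw⟩ : ∃ jw, jw = (a + j + 2) * j + (jf + 1) * jf + (c + 3) := ⟨_, rfl⟩
  obtain ⟨cC, k1, K, hC⟩ := ram_of_Ex ef e jw (3 * (8 * ((jf + 1) * jf) ^ ((jf + 1) * jf)))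
    fu fun N hN => by
      refine ⟨?_, fun ω => ?_⟩
      · calc fu N = N * (2 ^ sb N) ^ c := by
              rw [hfu']; beta_reduce; rw [fuelF, ← pow_mul, mul_comm c]
          _ ≤ N * N ^ c := Nat.mul_le_mul_left _ (Nat.pow_le_pow_left (two_pow_sb_le hN) _)
          _ = N ^ (c + 1) := by ring
          _ ≤ N ^ jw := Nat.pow_le_pow_right (by omega) (by omega)
      · have h1 : N ≤ N ^ (jf + 1) := Nat.le_self_pow (by omega) _
        have h2 : jf + 1 < N ^ (jf + 1) := Nat.lt_pow_self (by omega)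
        obtain ⟨v', t, g1, g2, g3⟩ := hf (N ^ (jf + 1)) (N ^ jw)
          ⟨by omega, by omega, by rw [← pow_mul]; exact Nat.pow_le_pow_right (by omega) (by omega)⟩
          (.nat N) N ⟨rfl, h1⟩ ω 0
        refine ⟨t, g2.1 ▸ g1, ?_⟩
        have h3 : t ≤ lg N ^ ((jf + 1) * jf) := by
          rw [pow_mul]
          exact g3.trans (Nat.pow_le_pow_left (lg_pow_le N jf) _)
        have h4 := lg_pow_le_lin ((jf + 1) * jf) (x := N) (by omega)
        rw [mul_assoc]
        omega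
  obtain ⟨P, C0, k, hP⟩ := ram_of_C cC k1 (fun n m => K * (fu (n + m + 2) + (n + m + 2)))
    fun n G L ω => ⟨(hC n G L ω).1, (hC n G L ω).2.1⟩
  refine ⟨P, fun n m => (C0 + 1) * (K + 1) * (fu (n + m + 2) + (n + m + 2)) + 5 * n + 13, _,
    ((Sub.const ((C0 + 1) * (K + 1))).mul (hsub.add (Sub.const 1))).add (Sub.const 12),
      fun n m => ?_, k, fun n G L => ⟨fun ω => ?_, fun B hB => ?_⟩⟩
  · have h3 : fu (n + m + 2) = (n + m + 2) * 2 ^ (c * sb (n + m + 2)) := by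
      rw [hfu']; beta_reduce; rw [fuelF]
    beta_reduce
    rw [h3]
    nlinarith [Nat.zero_le m]
  · obtain ⟨t, s, i, h1, h2, -⟩ := hP n G L ω
    refine ⟨t, s, i, h1, h2.trans ?_⟩
    beta_reduce
    generalize fu (n + G.edgeSet.ncard + 2) + (n + G.edgeSet.ncard + 2) = X
    nlinarith [Nat.zero_le (C0 * X), Nat.zero_le (K * X)]
  · obtain ⟨N, hN⟩ : ∃ N, N = n + G.edgeSet.ncard + 2 := ⟨_, rfl⟩
    have hN2 : 2 ≤ N := by omega
    have hcN := hc N hN2
    have hlg := one_le_lg_pow (N ^ (a + j + 2)) j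
    have hfu : 3 * (lg (N ^ (a + j + 2)) ^ j * (N * g N + 1)) ≤ fu N := by
      have : N * g N + 1 ≤ N * (g N + 1) := by nlinarith
      calc _ ≤ 3 * (lg (N ^ (a + j + 2)) ^ j * (N * (g N + 1))) :=
            Nat.mul_le_mul_left _ (Nat.mul_le_mul_left _ this)
        _ = N * (3 * lg (N ^ (a + j + 2)) ^ j * (g N + 1)) := by ring
        _ ≤ N * 2 ^ (c * sb N) := Nat.mul_le_mul_left _ hcN
        _ = _ := by rw [hfu']; beta_reduce; rw [fuelF]
    have hTB : N * g N ≤ B := by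
      beta_reduce at hB
      rw [← hN] at hB
      have h1 : N * g N + 1 ≤ lg (N ^ (a + j + 2)) ^ j * (N * g N + 1) :=
        Nat.le_mul_of_pos_left _ hlg
      have h2 : fu N + N ≤ (C0 + 1) * (K + 1) * (fu N + N) :=
        Nat.le_mul_of_pos_left _ (by positivity)
      omega
    have h22 := card_good_ge (B := N ^ a) (main L.encode) (fun out _ => ∃ M : G.Subgraph,
      IsMaximumMatching G M ∧ Represents (fun i => out.getD i 0) M) hTB
    have h21 := h n G L
    rw [← hN] at h21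
    have h23 : (2 : ℝ) ^ B * (1 - δ (n + G.edgeSet.ncard + 2)) ≤ _ :=
      le_trans (mul_le_mul_of_nonneg_left (by rw [← hN]; linarith) (by positivity)) h22
    refine h23.trans (Nat.cast_le.2 (Nat.card_le_card_of_injective
      (Subtype.map id fun ω hω => ?_) (Subtype.map_injective _ Function.injective_id)))
    obtain ⟨out, i, t, hr, ⟨M, hM, hrep⟩, ht⟩ := hω
    obtain ⟨t', s, i', h1, -, h3⟩ := hP n G L (extend ω)
    refine ⟨t', s, i', M, h1, hM, fun v => ?_⟩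
    have hB2 : N ^ 2 ≤ N ^ (a + j + 2) := Nat.pow_le_pow_right (by omega) (by omega)
    have hsq : 2 * N ≤ N ^ 2 := by rw [pow_two]; exact Nat.mul_le_mul_right _ hN2
    have hj : a + j + 2 < N ^ (a + j + 2) := Nat.lt_pow_self (by omega)
    obtain ⟨v', steps, g1, g2, g3⟩ := he (N ^ (a + j + 2)) (N ^ jw)
      ⟨by omega, by omega, by rw [← pow_mul]; exact Nat.pow_le_pow_right (by omega) (by omega)⟩
      (V.ofList L.encode) L.encode (R_ofList fun x hx => by
        obtain ⟨y, hy, rfl⟩ := List.getElem_of_mem hx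
        have := IO.encode_le L y
        rw [List.getD_eq_getElem _ _ hy] at this
        omega) (extend ω) 0 out i t
      ((main L.encode).run_mono (Nat.pow_le_pow_right (by omega) (by omega)) hr)
    rw [eq_ofList_of_R g2] at g1
    have h4 := (hC n G L (extend ω)).2.2 steps out i (hN ▸ g1) (by
      rw [← hN]
      refine le_trans (Nat.mul_le_mul_left _ (g3.trans (Nat.mul_le_mul_left _ ?_))) hfu
      omega) v v.2
    rw [h3 v v.2, h4]
    exact hrep v

/-- Markov's inequality for the time, with any factor. -/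
theorem pr_of_vtP {β : Type} {d B : ℕ} {m : M β} {G : β → Prop} {Y Z K : ℕ}
    (h : Vt d B m fun b s => G b ∧ s ≤ Y ∧ s ≤ Z) (hZ : K * Z ≤ 2 ^ d) (hY : 0 < Y)
    (hK : 0 < K) : pr B m (fun b t => ¬ (G b ∧ t ≤ K * Y)) ≤ 2 / K := by
  classical
  have h1 := (h.mono (Q' := fun b s => G b ∧ s ≤ min Y Z) fun b s a => ⟨a.1, le_min a.2.1 a.2.2⟩).lv
  have y0 : (0 : ℝ) < Y := by exact_mod_cast hY
  have k0 : (0 : ℝ) < K := by exact_mod_cast hK
  have a1 : ((min Y Z : ℕ) : ℝ) ≤ Y := by exact_mod_cast min_le_left _ _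
  have a2 : ((min Y Z : ℕ) : ℝ) ≤ Z := by exact_mod_cast min_le_right _ _
  have a3 : (K : ℝ) * Z ≤ 2 ^ d := by exact_mod_cast hZ
  refine (h1 _ 0 (1 / (K * Y)) (by positivity) le_rfl (fun _ _ => by split_ifs <;> norm_num)
    fun b t hb => ?_).trans ?_
  · by_cases e : t ≤ K * Y
    · rw [if_neg (not_not.2 ⟨hb, e⟩)]
      positivity
    · rw [if_pos fun x => e x.2]
      have : K * Y < t := not_le.1 e
      have : (K : ℝ) * Y ≤ t := by exact_mod_cast this.le
      rw [zero_add, one_div, inv_mul_eq_div, le_div_iff₀ (by positivity)]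
      linarith
  · have b1 : 1 / (K * (Y : ℝ)) * (min Y Z : ℕ) ≤ 1 / K := by
      rw [one_div, inv_mul_eq_div, div_le_div_iff₀ (by positivity) k0]
      nlinarith
    have b2 : ((min Y Z : ℕ) : ℝ) / 2 ^ d ≤ 1 / K := by
      rw [div_le_div_iff₀ (by positivity) k0]
      nlinarith
    have b3 : (2 : ℝ) / K = 1 / K + 1 / K := by ring
    linarith

/-- Phases of almost-linear cost give the explicit bound, with failure probability
`2 ^ (-(a * sb N))`. -/
theorem stageP {ph : ℕ → ℕ → ℕ → Arr (List ℕ) → Arr ℕ → M (Arr ℕ)} {k : ℕ} {g : ℕ → ℕ}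
    (hp : PhaseOK ph k g fun b n _ => (n + 1) * g b) (a : ℕ) :
    ∃ (P : RProg) (T : ℕ → ℕ → ℕ) (g' : ℕ → ℕ), Sub g' ∧
      (∀ n m, T n m ≤ (n + m + 2) * g' (n + m + 2)) ∧ RandP P T fun N => 1 / 2 ^ (a * sb N) := by
  have hT : PowCost g 0 1 fun b n _ => (n + 1) * g b := fun b n K W _ _ _ e =>
    Nat.le_mul_of_pos_right _ (by simp at e; omega)
  obtain ⟨kb, hkb⟩ : ∃ kb, kb = a + 17 := ⟨_, rfl⟩
  obtain ⟨cR, hR⟩ := ((hp.sub kb).add (Sub.const 1)).exists_lin
  have hs : Sub fun N => 2 ^ (cR * sb N) := Sub.two_pow (Lin.sb.const_mul cR)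
  have ha : Sub fun N => 2 ^ (a * sb N) := Sub.two_pow (Lin.sb.const_mul a)
  refine top_fuelP (shell ph kb cR 0 1) (impl_shell hp.impl kb cR 0 1)
    ((3 * kb + 1) * (k + 1) + cR + 15) _
    (((Sub.const 2).mul ha).mul (((Sub.const 4000).mul Sub.lg).mul (hs.pow 2))) _
    fun n G L => ?_
  obtain ⟨N, hN⟩ : ∃ N, N = n + G.edgeSet.ncard + 2 := ⟨_, rfl⟩
  rw [← hN]
  have h2 : 2 ≤ N := by omega
  have e1 := two_pow_b (kb := kb) h2
  have up : ∀ {x : ℕ}, x ≤ (3 * kb + 1) * (k + 1) + cR + 15 →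
      N ^ x ≤ N ^ ((3 * kb + 1) * (k + 1) + cR + 15) := Nat.pow_le_pow_right (by omega)
  refine (pr_mono fun out t e => ?_).trans ((pr_of_vtP (K := 2 * 2 ^ (a * sb N))
    (shell_vt hp one_pos hT (kb := kb) (cR := cR) L
    hN (by omega) (hR N h2) ?_ ?_ ?_ ?_) ?_ (by have := two_le_lg N; positivity)
    (by positivity)).trans (le_of_eq ?_))
  · refine fun x => e ⟨x.1, x.2.trans (le_of_eq ?_)⟩
    simp only [ee, Nat.zero_mul, Nat.zero_div]
    ring
  · rw [mul_comm k, pow_mul]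
    refine (Nat.pow_le_pow_left e1.1 k).trans ?_
    rw [← pow_mul]
    exact up (by nlinarith)
  · exact (Nat.pow_le_pow_right (by omega) (by omega)).trans (e1.1.trans (up (by nlinarith)))
  · rw [mul_comm cR, pow_mul]
    refine (Nat.mul_le_mul_right _ (Nat.pow_le_pow_left (two_pow_sb_le h2) _)).trans ?_
    rw [← pow_succ]
    exact up (by omega)
  · refine le_trans ?_ (up (x := 12 + 3) (by omega))
    rw [pow_add]
    exact Nat.mul_le_mul_right _ (le_trans (by norm_num) (Nat.pow_le_pow_left h2 12))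
  · refine le_trans ?_ e1.2
    have b1 : 2 ^ (a * sb N) ≤ N ^ a := by
      rw [mul_comm, pow_mul]
      exact Nat.pow_le_pow_left (two_pow_sb_le h2) _
    calc _ = 20000 * (2 ^ (a * sb N) * N ^ 5) := by ring
      _ ≤ 2 ^ 17 * (N ^ a * N ^ 5) := Nat.mul_le_mul (by norm_num) (Nat.mul_le_mul_right _ b1)
      _ ≤ 2 ^ kb * N ^ kb := Nat.mul_le_mul (Nat.pow_le_pow_right (by omega) (by omega)) (by
          rw [← pow_add]
          exact Nat.pow_le_pow_right (by omega) (by omega))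
  · push_cast
    field_simp

end Vale.Agent.N305
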