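import Vale.Agent.P305E.Fuel
import Mathlib

/-!
# P305: the function `sb` is of the order `log N / log log log N`
-/

namespace Vale.Agent.N305

open Vale.Agent.P305E Filter

theorem log_le_size {z : ℝ} {y : ℕ} (hz : 0 < z) (h : z ≤ y) : Real.log z ≤ Nat.size y := by
  have h1 : (y : ℝ) ≤ 2 ^ Nat.size y := by exact_mod_cast (Nat.lt_size_self y).le
  have h2 := Real.log_le_log hz (h.trans h1)
  rw [Real.log_pow] at h2
  have h3 := Real.log_two_lt_d9
  have h4 : (0 : ℝ) ≤ Nat.size y := Nat.cast_nonneg _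
  nlinarith

theorem size_le_log {z K : ℝ} {y : ℕ} (hy : 1 ≤ y) (hz : 0 < z) (hK : 1 ≤ K) (h : y ≤ K * z)
    (hl : 1 ≤ Real.log z) : Nat.size y ≤ (2 * K + 1) * Real.log z := by
  have h1 : (2 : ℝ) ^ Nat.size y ≤ 2 * y := by exact_mod_cast two_pow_size_le hy
  have h2 := Real.log_le_log (by positivity) (h1.trans (mul_le_mul_of_nonneg_left h two_pos.le))
  rw [Real.log_pow, Real.log_mul (by norm_num) (by positivity),
    Real.log_mul (by positivity) hz.ne'] at h2
  have h3 := Real.log_two_gt_d9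
  have h3' := Real.log_two_lt_d9
  have h4 := Real.log_le_sub_one_of_pos (show 0 < K by linarith)
  have h5 : (1 : ℝ) ≤ Nat.size y := by exact_mod_cast Nat.size_pos.2 hy
  have h6 : ((Nat.size y : ℝ) - 1) * (1 / 2) ≤ (Nat.size y - 1) * Real.log 2 :=
    mul_le_mul_of_nonneg_left (by linarith) (by linarith)
  nlinarith

theorem logs_large : ∃ N₀ : ℕ, ∀ N : ℕ, N₀ ≤ N → 2 ≤ N ∧ 1 ≤ Real.log N ∧
    1 ≤ Real.log (Real.log N) ∧ 1 ≤ Real.log (Real.log (Real.log N)) := by
  have t0 : Tendsto (fun N : ℕ => (N : ℝ)) atTop atTop := tendsto_natCast_atTop_atTop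
  have t1 := Real.tendsto_log_atTop.comp t0
  have t2 := Real.tendsto_log_atTop.comp t1
  have t3 := Real.tendsto_log_atTop.comp t2
  exact eventually_atTop.1 ((eventually_ge_atTop 2).and ((t1.eventually_ge_atTop 1).and
    ((t2.eventually_ge_atTop 1).and (t3.eventually_ge_atTop 1))))

theorem sb_order {N : ℕ} (h0 : 2 ≤ N) (h1 : 1 ≤ Real.log N) (h2 : 1 ≤ Real.log (Real.log N))
    (h3 : 1 ≤ Real.log (Real.log (Real.log N))) :
    (sb (N + 2) : ℝ) ≤ Real.log N * (5 / Real.log (Real.log (Real.log N))) ∧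
      Real.log N * (1 / Real.log (Real.log (Real.log N))) ≤ 46 * sb (N + 2) := by
  have n0 : (2 : ℝ) ≤ N := by exact_mod_cast h0
  have s1 := two_le_size (x := N + 2) (by omega)
  have s2 := two_le_size s1
  have s3 := two_le_size s2
  have a1 := log_le_size (z := N) (y := N + 2) (by linarith) (by push_cast; linarith)
  have a2 := log_le_size (by linarith) a1
  have a3 := log_le_size (by linarith) a2
  have b1 := size_le_log (z := N) (K := 2) (y := N + 2) (by omega) (by linarith) (by norm_num)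
    (by push_cast; linarith) h1
  have b2 := size_le_log (by omega) (by linarith) (by norm_num) b1 h2
  have b3 := size_le_log (by omega) (by linarith) (by norm_num) b2 h3
  have c0 : (1 : ℝ) ≤ sb (N + 2) := by exact_mod_cast one_le_sb (N := N + 2) (by omega)
  have c1 : (sb (N + 2) : ℝ) * Nat.size (Nat.size (Nat.size (N + 2))) ≤ Nat.size (N + 2) := by
    exact_mod_cast Nat.div_mul_le_self _ _
  have c2 : (Nat.size (N + 2) : ℝ) ≤ Nat.size (Nat.size (Nat.size (N + 2))) * (sb (N + 2) + 1) := by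
    exact_mod_cast (Nat.lt_mul_div_succ (Nat.size (N + 2)) (by omega)).le
  have c3 : (0 : ℝ) ≤ Nat.size (Nat.size (Nat.size (N + 2))) := Nat.cast_nonneg _
  constructor
  · rw [← mul_div_assoc, le_div_iff₀ (by linarith)]
    nlinarith
  · rw [← mul_div_assoc, div_le_iff₀ (by linarith)]
    nlinarith

theorem real_bounds (a : ℝ) : ∃ a' N₀ : ℕ, 2 ≤ a' ∧ ∀ c : ℕ, ∃ C : ℝ, ∀ N : ℕ, N₀ ≤ N →
    (((N + 2) * 2 ^ (c * sb (N + 2)) : ℕ) : ℝ) ≤
        (N : ℝ) ^ (1 + C / Real.log (Real.log (Real.log N))) ∧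
      1 / 2 ^ (a' * sb (N + 2)) ≤ (N : ℝ) ^ (-a / Real.log (Real.log (Real.log N))) := by
  obtain ⟨N₀, hN⟩ := logs_large
  obtain ⟨a', ha⟩ := exists_nat_ge (92 * a)
  refine ⟨a' + 2, N₀, by omega, fun c => ⟨5 * (c + 1), fun N h => ?_⟩⟩
  obtain ⟨h0, h1, h2, h3⟩ := hN N h
  obtain ⟨e1, e2⟩ := sb_order h0 h1 h2 h3
  have n0 : (2 : ℝ) ≤ N := by exact_mod_cast h0
  have c0 : (1 : ℝ) ≤ sb (N + 2) := by exact_mod_cast one_le_sb (N := N + 2) (by omega)
  have l1 := Real.log_two_gt_d9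
  have l2 := Real.log_two_lt_d9
  have p2 : ∀ j : ℕ, (2 : ℝ) ^ j = Real.exp (j * Real.log 2) := fun j => by
    rw [Real.exp_nat_mul, Real.exp_log two_pos]
  obtain ⟨l, hl⟩ : ∃ l, l = Real.log (Real.log (Real.log N)) := ⟨_, rfl⟩
  rw [← hl] at h3 e1 e2 ⊢
  have c1 : (0 : ℝ) ≤ c := Nat.cast_nonneg _
  have a0 : (0 : ℝ) ≤ a' := Nat.cast_nonneg _
  constructor
  · rw [Real.rpow_add (by linarith), Real.rpow_one, Real.rpow_def_of_pos (by linarith)]
    calc (((N + 2) * 2 ^ (c * sb (N + 2)) : ℕ) : ℝ) ≤ N * 2 ^ (c * sb (N + 2) + 1) := by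
          push_cast
          rw [pow_succ]
          have : (0 : ℝ) < 2 ^ (c * sb (N + 2)) := by positivity
          nlinarith
      _ ≤ _ := by
          refine mul_le_mul_of_nonneg_left ?_ (by linarith)
          rw [p2]
          refine Real.exp_le_exp.2 ?_
          have e3 : Real.log N * (5 * (c + 1) / l) = (c + 1) * (Real.log N * (5 / l)) := by ring
          have e4 := mul_le_mul_of_nonneg_left e1 (show (0 : ℝ) ≤ c + 1 by linarith)
          have e5 : (0 : ℝ) ≤ c * sb (N + 2) := by positivity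
          rw [e3]
          push_cast
          nlinarith
  · rw [Real.rpow_def_of_pos (by linarith), p2, one_div, ← Real.exp_neg]
    refine Real.exp_le_exp.2 ?_
    have e3 : Real.log N * (-a / l) = -a * (Real.log N * (1 / l)) := by ring
    have e4 : (0 : ℝ) ≤ Real.log N * (1 / l) := by positivity
    have e5 := mul_le_mul_of_nonneg_right ha e4
    have e6 := mul_le_mul_of_nonneg_left e2 a0
    have e7 : (0 : ℝ) ≤ (a' + 2) * sb (N + 2) := by positivity
    have e8 := mul_le_mul_of_nonneg_left (show (1 : ℝ) / 2 ≤ Real.log 2 by linarith) e7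
    rw [e3]
    push_cast
    nlinarith

end Vale.Agent.N305
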