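import Vale.Agent.N305.Defs
import Vale.Agent.N305.Fuel
import Vale.Agent.P305W88.Top
import Vale.Agent.P305Z.Top

/-!
# P305: explicit time bound and failure probability on the word RAM with jumps
-/

namespace Vale.Agent.N305

open Vale.Agent.P305 Vale.Agent.P305.MM Vale.Agent.P305W88 MeasureTheory

theorem coins_real {B : ℕ} (A : Set (Fin B → Bool)) :
    coins.real (res B ⁻¹' A) = Nat.card A / 2 ^ B := by
  classical
  have h1 := sum_measure_preimage_singleton (μ := coins) A.toFinset (f := res B)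
    fun a _ => measurable_res B (measurableSet_singleton a)
  rw [Set.coe_toFinset] at h1
  rw [Measure.real, ← h1]
  simp only [coins_single, Finset.sum_const, nsmul_eq_mul]
  rw [Nat.card_eq_card_toFinset]
  simp [div_eq_mul_inv]

theorem lowerP {P : List Ins} {k : ℕ} {T : ℕ → ℕ → ℕ} {p : ℕ → ℕ → ℝ} (h : Computes P k T p)
    {n : ℕ} (G : SimpleGraph (Fin n)) : n + G.edgeSet.ncard ≤ T n G.edgeSet.ncard := by
  classical
  let L : AdjLists G := ⟨fun v => (G.neighborFinset v).toList, fun v => Finset.nodup_toList _,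
    fun u v => by simp⟩
  obtain ⟨-, t, ht, -⟩ := h n G L ((n + 2) ^ k) Nat.lt_two_pow_self.le
  rw [length_encode] at ht
  omega

theorem Computes.mono {P : List Ins} {k : ℕ} {T T' : ℕ → ℕ → ℕ} {p p' : ℕ → ℕ → ℝ}
    (h : Computes P k T p) (hT : ∀ n m, T n m ≤ T' n m) (hp : ∀ n m, p' n m ≤ p n m) :
    Computes P k T' p' := fun n G L w hw =>
  let ⟨h1, t, h2, h3, h4, h5⟩ := h n G L w hw
  ⟨h1, t, h2.trans (hT _ _), h3, h4, (hp _ _).trans h5⟩

theorem computes {p : RProg} {T : ℕ → ℕ → ℕ} {δ : ℕ → ℝ} (h : RandP p T δ) :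
    ∃ k, Computes (comp p 0) k (fun n m => n + 2 + 2 * m + 3 * T n m + n)
      fun n m => 1 - δ (n + m + 2) := by
  obtain ⟨k, h⟩ := h
  refine ⟨2 * k + 2, fun n G L w hw => ?_⟩
  obtain ⟨h1, h2⟩ := h n G L
  set m := G.edgeSet.ncard with hm
  have hpos : 0 < (n + 2) ^ (2 * k) := by positivity
  have h2w : (n + 2) ^ 2 ≤ 2 ^ w := le_trans (Nat.pow_le_pow_right (by omega) (by omega)) hw
  have hW : (n + m + 2) ^ k < 2 ^ w := by
    have h3 : n + m + 2 ≤ (n + 2) ^ 2 := by
      have := edges_le G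
      nlinarith
    calc (n + m + 2) ^ k ≤ ((n + 2) ^ 2) ^ k := Nat.pow_le_pow_left h3 k
      _ = (n + 2) ^ (2 * k) := by rw [← pow_mul]
      _ < (n + 2) ^ (2 * k + 2) := Nat.pow_lt_pow_right (by omega) (by omega)
      _ ≤ 2 ^ w := hw
  have hfit : ∀ x ∈ L.encode, x < 2 ^ w := fun x hx => ((fits L).2 x hx).trans_le h2w
  set c0 : Cfg w := ⟨0, fun _ => 0, fun a => BitVec.ofNat w (L.encode.getD a.toNat 0), 0⟩ with hc0
  have hR : Rel c0 (State.init L.encode) 0 0 := by
    refine ⟨rfl, fun r => by simp [hc0, State.init], fun a => ?_, rfl⟩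
    simp only [hc0, State.init, BitVec.toNat_ofNat]
    refine Nat.mod_eq_of_lt ?_
    by_cases ha : a.toNat < L.encode.length
    · rw [List.getD_eq_getElem _ _ ha]
      exact hfit _ (List.getElem_mem ha)
    · rw [List.getD_eq_default _ _ (not_lt.1 ha)]
      exact Nat.two_pow_pos w
  have hA : At (comp p 0) 0 (comp p 0) := fun j _ => by rw [Nat.zero_add]
  have halt : ∀ ω, (comp p 0).length ≤ (run w (comp p 0) ω L.encode (3 * T n m)).pc := by
    intro ω
    obtain ⟨t, s, i, he, ht⟩ := h1 ω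
    obtain ⟨c', ⟨u, hu, hc'⟩, hR'⟩ := sim hW he 0 c0 hA hR
    have h3 : (comp p 0).length ≤ ((step (comp p 0) ω)^[u] c0).pc := by
      rw [hc', hR'.pc, length_comp, Nat.zero_add]
    have h4 := iter_of_halted h3 (show u ≤ 3 * T n m by omega)
    rw [P305W88.run, h4]
    exact h3
  have hE : {ω | Outputs G (run w (comp p 0) ω L.encode (3 * T n m))} = res (3 * T n m) ⁻¹'
      {a | Outputs G (run w (comp p 0) (MM.extend a) L.encode (3 * T n m))} := by
    ext ω
    rw [Set.mem_preimage, Set.mem_ofPred_eq, Set.mem_ofPred_eq, ← run_res]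
  refine ⟨⟨(fits L).1.trans h2w, hfit⟩, 3 * T n m, (by rw [length_encode]), halt, ?_, ?_⟩
  · rw [hE]
    exact measurable_res _ (Set.toFinite _).measurableSet
  · rw [hE, coins_real, le_div_iff₀ (by positivity), mul_comm]
    refine (h2 (3 * T n m) (by omega)).trans (Nat.cast_le.2 ?_)
    refine Nat.card_mono (Set.toFinite _) ?_
    rintro a ⟨t, s, i, M, he, hM, hrep⟩
    obtain ⟨c', ⟨u, -, hc'⟩, hR'⟩ := sim hW he 0 c0 hA hR
    have h3 : (comp p 0).length ≤ ((step (comp p 0) (MM.extend a))^[u] c0).pc := by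
      rw [hc', hR'.pc, length_comp, Nat.zero_add]
    have h4 := iter_unique h3 (halt (MM.extend a))
    refine ⟨M, hM, fun v => ?_⟩
    have h5 : ((run w (comp p 0) (MM.extend a) L.encode (3 * T n m)).mem
        (BitVec.ofNat w v)).toNat = s.mem v := by
      rw [P305W88.run, h4, hc', hR'.mem, BitVec.toNat_ofNat, Nat.mod_eq_of_lt]
      have := v.2
      nlinarith
    simp only [h5]
    exact hrep v

/-- The explicit bound. -/
theorem explicit (a : ℕ) : ∃ (P : List Ins) (k c : ℕ),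
    Computes P k (fun n m => (n + m + 2) * 2 ^ (c * P305E.sb (n + m + 2)))
      fun n m => 1 - 1 / 2 ^ (a * P305E.sb (n + m + 2)) := by
  obtain ⟨ph, k, g, hp⟩ := P305Z.phase
  obtain ⟨p, T, g', h1, h2, h3⟩ := stageP hp a
  obtain ⟨k', h4⟩ := computes h3
  obtain ⟨c, hc⟩ := (((P305E.Sub.const 3).mul h1).add (P305E.Sub.const 2)).exists_lin
  refine ⟨_, k', c, h4.mono (fun n m => ?_) fun n m => le_rfl⟩
  have e1 := hc (n + m + 2) (by omega)
  have e2 := h2 n m
  refine le_trans ?_ (Nat.mul_le_mul_left _ e1)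
  nlinarith

end Vale.Agent.N305
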